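import Vale.Agent.P128.B8.Main

/-! P128 block B10: regularity of almost minimizers. Interface; see notes/P128.md. -/

namespace Vale.Agent.P128

open MeasureTheory Set Metric Filter Topology
open scoped ENNReal

theorem near_ray_b10 {e y w : ℂ} (he : ‖e‖ = 1) (hy : ‖y‖ = 1) (hw : w ∈ cone 1 0 e) {γ : ℝ}
    (hd : dist y w ≤ γ) : dist y e ≤ 2 * γ := by
  obtain ⟨j, t, ht, rfl⟩ := hw
  have h1 : rt 1 = 1 := by simp [rt]
  rw [h1, one_pow, mul_one, zero_add] at hd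
  have h2 : ‖(t : ℂ) * e‖ = t := by
    rw [norm_mul, he, Complex.norm_real, Real.norm_of_nonneg ht, mul_one]
  have h3 : |1 - t| ≤ γ := by
    have := abs_norm_sub_norm_le y ((t : ℂ) * e)
    rw [hy, h2, ← dist_eq_norm] at this
    exact this.trans hd
  have h4 : dist ((t : ℂ) * e) e = |1 - t| := by
    rw [dist_comm, dist_eq_norm, show e - (t : ℂ) * e = ((1 - t : ℝ) : ℂ) * e by push_cast; ring,
      norm_mul, he, Complex.norm_real, Real.norm_eq_abs, mul_one]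
  linarith [dist_triangle y ((t : ℂ) * e) e]

/-- The statement of `NEAR1` along a converging sequence. -/
theorem near_seq_b10 {c : ℝ} {Ω : ℕ → Set ℂ} {ε : ℕ → ℝ} {wk : ℕ → Prop} {u : ℕ → ℂ → ℝ}
    {K : ℕ → Set ℂ} {v : ℂ → ℝ} {L : Set ℂ} (hs : Seq c Ω ε wk u K) (h : Conv u K v L) {e : ℂ}
    (hR : IsRay v L 0 e 1) {τ τ' : ℝ} (hτ : 0 < τ) (hτ1 : τ ≤ 1 / 4) (hτ' : 0 < τ')
    (hτ'1 : τ' ≤ 1 / 4) : ∀ᶠ n in atTop, ∀ y ∈ K n, ‖y‖ = 1 →
      D (u n) (K n) y τ ≤ 2 * τ * τ ∧ len (K n) y τ' ≤ 2.4 * τ' := by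
  have he := hR.unit
  have hde : dist e 0 = 1 := by rw [dist_zero_right, he]
  set γ := min τ τ' / 20 with hγ
  have g0 : 0 < γ := by positivity
  have g1 : γ ≤ τ / 20 := by have := min_le_left τ τ'; linarith
  have g2 : γ ≤ τ' / 20 := by have := min_le_right τ τ'; linarith
  have a1 : D v L e (6 / 5 * τ) < 2 * τ * τ := by
    have := hR.low (y := e) (t := 6 / 5 * τ) (by positivity) (by linarith)
    rw [hde, div_one] at this
    nlinarith
  have a2 : lenc L e (11 / 10 * τ') ≤ 2 * (11 / 10 * τ') := by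
    rw [hR.eq]
    refine (cone_len (Or.inl rfl) he).2.2.2.2.1 e ⟨0, 1, zero_le_one, by simp⟩ _ (by positivity) ?_
    linarith
  filter_upwards [h.toConv0.haus 0 1 g0, (h.en e _ (by positivity)).eventually_lt_const a1,
    h.usc e (11 / 10 * τ') (1 / 5 * τ') (by positivity) (by positivity), hs.dom 2]
    with n b1 b2 b3 b4 y hy hy1
  obtain ⟨w, hw, hd⟩ := b1.1 y ⟨hy, by simp [hy1]⟩
  have c1 := near_ray_b10 he hy1 (hR.eq ▸ hw) hd
  have c2 : ∀ t, t ≤ 1 → closedBall e t ⊆ Ω n := fun t ht =>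
    (closedBall_subset_closedBall' (by linarith)).trans b4
  have c3 := (((hs.am n).mono_real (by positivity) (c2 (6 / 5 * τ) (by linarith))).1 y τ
    (ball_subset_ball' (by linarith))).1
  have c4 := (((hs.am n).mono_real (by positivity) (c2 (11 / 10 * τ') (by linarith))).1 y τ'
    (ball_subset_ball' (by linarith))).2
  obtain ⟨-, -, -, -, -, -, -, c5, -⟩ :=
    (hs.am n).upper_real (by positivity) (c2 (11 / 10 * τ') (by linarith))
  exact ⟨by linarith, by linarith⟩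

/-- At a point of high energy all small scales look like a ray with tip at the point. -/
theorem NEAR1 {Ω : Set ℂ} {ε c : ℝ} {wk : Prop} {u : ℂ → ℝ} {K : Set ℂ}
    (h : AM Ω ε wk c u K) {x : ℂ} (hx : x ∈ K) (hΩ : x ∈ Ω) {δ : ℝ} (hδ : 0 < δ)
    (hD : ∀ᶠ t in 𝓝[>] (0 : ℝ), δ * t ≤ D u K x t) {η τ τ' : ℝ} (hη : 0 < η) (hτ : 0 < τ)
    (hτ1 : τ ≤ 1 / 4) (hτ' : 0 < τ') (hτ'1 : τ' ≤ 1 / 4) :
    ∀ᶠ s in 𝓝[>] (0 : ℝ), (∃ e, Close 1 η K x s e) ∧ ∀ y ∈ K, dist y x = s →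
      D u K y (τ * s) ≤ 2 * τ * (τ * s) ∧ len K y (τ' * s) ≤ 2.4 * (τ' * s) := by
  by_contra hcon
  obtain ⟨s, hs, hP⟩ := exists_seq_forall_of_frequently
    ((not_eventually.1 hcon).and_eventually (self_mem_nhdsWithin (s := Ioi (0 : ℝ))))
  have s0 : ∀ n, 0 < s n := fun n => (hP n).2
  have s1 : Tendsto s atTop (𝓝 0) := hs.mono_right nhdsWithin_le_nhds
  obtain ⟨R, hR, hB⟩ := Metric.nhds_basis_closedBall.mem_iff.1 (h.isOpen.mem_nhds hΩ)
  have hseq := seq_of_blowup (Ω := fun _ => Ω) (ε := fun _ => ε) (wk := fun _ => wk)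
    (u := fun _ => u) (K := fun _ => K) (fun _ => h) (x := fun _ => x) (r := fun _ => R) s0
    (fun _ => hB) (by
      simp only [div_eq_mul_inv]
      exact (tendsto_inv_nhdsGT_zero.comp hs).const_mul_atTop hR)
    (by simpa using (s1.sqrt).const_mul ε)
  obtain ⟨φ, hφ, v, L, hGM, hc⟩ := comp hseq
  have h0 : (0 : ℂ) ∈ L := hc.toConv0.mem_of_tendsto (z := fun _ => 0)
    (Frequently.of_forall fun n => by simpa [rescS] using hx) tendsto_const_nhds
  obtain ⟨e, hRay⟩ := class_tip hGM h0 hδ fun t ht => by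
    refine ge_of_tendsto (hc.en 0 t ht) ?_
    have t1 : Tendsto (fun n => s (φ n) * t) atTop (𝓝[>] 0) := by
      refine tendsto_nhdsWithin_iff.2 ⟨?_, Eventually.of_forall fun n => mul_pos (s0 _) ht⟩
      simpa using (s1.comp hφ.tendsto_atTop).mul_const t
    filter_upwards [t1.eventually hD] with n hn
    have := (resc_real u K x (s0 (φ n)) 0 t).1
    rw [mul_zero, add_zero] at this
    simp only [Function.comp]
    rw [this, le_div_iff₀ (s0 _)]
    linarith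
  obtain ⟨n, a1, a2⟩ := ((hc.toConv0.close hRay.unit hRay.eq hη one_pos).and
    (near_seq_b10 (hseq.subseq hφ) hc hRay hτ hτ1 hτ' hτ'1)).exists
  simp only [Function.comp] at a1 a2
  have p0 := s0 (φ n)
  refine (hP (φ n)).1 ⟨⟨e, ?_⟩, fun y hy hd => ?_⟩
  · have := ((resc_real u K x p0 0 1).2.2.2.2.2.1 1 η e).1 a1
    rwa [mul_zero, add_zero, mul_one] at this
  · obtain ⟨w, rfl⟩ := rsd_surj x p0 y
    have w1 : ‖w‖ = 1 := by
      rw [dist_self_add_left, norm_mul, Complex.norm_real, Real.norm_of_nonneg p0.le] at hd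
      exact mul_left_cancel₀ p0.ne' (by rw [hd, mul_one])
    obtain ⟨b1, b2⟩ := a2 w hy w1
    rw [(resc_real u K x p0 w τ).1, div_le_iff₀ p0, mul_comm (s (φ n))] at b1
    rw [(resc_real u K x p0 w τ').2.1, div_le_iff₀ p0, mul_comm (s (φ n))] at b2
    exact ⟨by linarith, by linarith⟩

theorem final_AM {Ω : Set ℂ} {ε c : ℝ} {wk : Prop} {u : ℂ → ℝ} {K : Set ℂ}
    (h : AM Ω ε wk c u K) {x : ℂ} (hx : x ∈ K) (hΩ : x ∈ Ω) : Reg Ω K x := by
  have hc := h.cpos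
  obtain ⟨R, hR, hB⟩ := Metric.nhds_basis_closedBall.mem_iff.1 (h.isOpen.mem_nhds hΩ)
  have hsm : ∀ ε₀ : ℝ, 0 < ε₀ → ∀ᶠ r in 𝓝[>] (0 : ℝ), ε * √r ≤ ε₀ := fun ε₀ h0 => by
    have t1 : Tendsto (fun r : ℝ => ε * √r) (𝓝[>] 0) (𝓝 0) := by
      simpa using ((tendsto_id.mono_left (nhdsWithin_le_nhds (a := (0 : ℝ))
        (s := Ioi 0))).sqrt).const_mul ε
    exact t1.eventually_le_const h0
  obtain ⟨δ₀, ε₀, hδ₀, hε₀, HL⟩ := LOWREG hc
  by_cases hev : ∀ᶠ r in 𝓝[>] (0 : ℝ), δ₀ * r ≤ D u K x r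
  · obtain ⟨δF, εF, τ₁, τ₀, A, α, hδF, hεF, hτ₀, hτ01, hτ1, hα, hα1, HF⟩ := FLAT hc
    have hτ₁ : 0 < τ₁ := hτ₀.trans_le hτ01
    set τ := min (δF / 2) (1 / 4) with hτ
    have t0 : 0 < τ := lt_min (by positivity) (by norm_num)
    have t1 : τ ≤ δF / 2 := min_le_left _ _
    have t2 : τ ≤ 1 / 4 := min_le_right _ _
    obtain ⟨η, A', hη, HR⟩ := RAD (N := 1) (Or.inl rfl) (τ := τ₀ * τ) (A := max A 0 * (1 / τ) ^ α)
      (by positivity) (by nlinarith) hα hα1
    obtain ⟨T, hT, hP⟩ := (nhdsGT_basis_Ioc (0 : ℝ)).eventually_iff.1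
      ((NEAR1 h hx hΩ hδ₀ hev hη t0 t2 (τ' := τ₁ * τ) (by positivity) (by nlinarith)).and
        ((hsm εF hεF).and (Ioc_mem_nhdsGT (half_pos hR))))
    have hTR : T ≤ R / 2 := (hP (show T ∈ Ioc 0 T from ⟨hT, le_rfl⟩)).2.2.2
    obtain ⟨z, z', hS⟩ := HR K x (T / 4) h.closed hx (by positivity)
      (fun s hs => (hP (show s ∈ Ioc 0 T from ⟨hs.1, by linarith [hs.2]⟩)).1.1)
      (fun y hy d0 d1 => by
        obtain ⟨⟨-, k1⟩, k2, -⟩ := hP (show dist y x ∈ Ioc 0 T from ⟨d0, by linarith⟩)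
        obtain ⟨k3, k4⟩ := k1 y hy rfl
        have k5 : 0 < τ * dist y x := by positivity
        have k6 : τ * dist y x ≤ dist y x := by nlinarith
        obtain ⟨e, φ, φ', hGr⟩ := HF Ω ε wk u K h y (τ * dist y x) hy k5
          ((closedBall_subset_closedBall' (by linarith)).trans hB)
          ((mul_le_mul_of_nonneg_left (Real.sqrt_le_sqrt k6) h.eps).trans k2)
          (k3.trans (mul_le_mul_of_nonneg_right (by linarith) k5.le))
          (by
            rw [← mul_assoc]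
            have : 0 ≤ τ₁ * τ * dist y x := by positivity
            linarith)
        refine ⟨e, φ, φ', hGr.mono k5 hα (le_of_eq (by ring)) d0 (le_of_eq ?_)⟩
        rw [show dist y x / (τ * dist y x) = 1 / τ by field_simp])
    have hB' : closedBall x (T / 4) ⊆ Ω := (closedBall_subset_closedBall (by linarith)).trans hB
    exact hS.reg (Or.inl rfl) (TIPCORE h hS hB').1 hB'
  · obtain ⟨r, h1, h2, r0, r1⟩ := ((not_eventually.1 hev).and_eventually
      ((hsm ε₀ hε₀).and (Ioc_mem_nhdsGT hR))).exists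
    have hB' : closedBall x r ⊆ Ω := (closedBall_subset_closedBall r1).trans hB
    rcases HL Ω ε wk u K h x r hx r0 hB' h2 (not_le.1 h1).le with
      ⟨e, g, A, α, φ, φ', g0, g1, hα, hG⟩ | ⟨-, ρ, A, α, z, z', g1, hS, hT⟩
    · exact hG.reg g0 one_pos hα ((closedBall_subset_closedBall g1).trans hB')
    · exact hS.reg (Or.inr rfl) hT ((closedBall_subset_closedBall g1).trans hB')

end Vale.Agent.P128
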